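import Vale.Agent.P348.Defs

namespace Vale.Agent.P348

open Function

theorem eps_sum (a b c d : Fin 3) :
    ∑ α, eps α a b * eps α c d
      = (if a = c ∧ b = d then 1 else 0) - (if a = d ∧ c = b then 1 else 0) := by
  revert a b c d
  decide

theorem spin_sum (a b c d : Fin 3) :
    ∑ α, spin α a b * spin α c d
      = (if a = d ∧ c = b then 1 else 0) - (if a = c ∧ b = d then 1 else 0) := by
  have h : ((∑ α, eps α a b * eps α c d : ℤ) : ℂ)
      = (((if a = c ∧ b = d then 1 else 0) - (if a = d ∧ c = b then 1 else 0) : ℤ) : ℂ) := by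
    rw [eps_sum]
  push_cast at h
  have e : ∑ α, spin α a b * spin α c d = -∑ α, ((eps α a b : ℂ) * (eps α c d : ℂ)) := by
    rw [← Finset.sum_neg_distrib]
    refine Finset.sum_congr rfl fun α _ => ?_
    unfold spin
    linear_combination ((eps α a b : ℂ) * (eps α c d : ℂ)) * Complex.I_mul_I
  rw [e, h]
  ring

/-- two-site update -/
def upd {L : ℕ} (s : ZMod L → Fin 3) (j k : ZMod L) (b c : Fin 3) : ZMod L → Fin 3 :=
  update (update s j b) k c

theorem upd_left {L : ℕ} {s : ZMod L → Fin 3} {j k : ZMod L} (h : j ≠ k) (b c : Fin 3) :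
    upd s j k b c j = b := by
  unfold upd
  rw [update_of_ne h, update_self]

theorem upd_right {L : ℕ} {s : ZMod L → Fin 3} {j k : ZMod L} (b c : Fin 3) :
    upd s j k b c k = c := by
  unfold upd
  rw [update_self]

theorem upd_other {L : ℕ} {s : ZMod L → Fin 3} {j k l : ZMod L} (h1 : l ≠ j) (h2 : l ≠ k)
    (b c : Fin 3) : upd s j k b c l = s l := by
  unfold upd
  rw [update_of_ne h2, update_of_ne h1]

theorem upd_upd {L : ℕ} {s : ZMod L → Fin 3} {j k : ZMod L} (b c b' c' : Fin 3) :
    upd (upd s j k b c) j k b' c' = upd s j k b' c' := by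
  unfold upd
  funext l
  simp only [update_apply]
  split_ifs <;> rfl

theorem upd_self {L : ℕ} {s : ZMod L → Fin 3} {j k : ZMod L} :
    upd s j k (s j) (s k) = s := by
  unfold upd
  rw [update_eq_self, update_eq_self]

theorem bond_apply {L : ℕ} {j : ZMod L} (h : j ≠ j + 1) (ψ : Hil L) (s : ZMod L → Fin 3) :
    bond L j ψ s = ψ (upd s j (j + 1) (s (j + 1)) (s j))
      - if s j = s (j + 1) then ∑ b, ψ (upd s j (j + 1) b b) else 0 := by
  have e1 : bond L j ψ s = ∑ b, ∑ c, (∑ α, spin α (s j) b * spin α (s (j + 1)) c) *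
      ψ (upd s j (j + 1) b c) := by
    unfold bond
    rw [LinearMap.sum_apply, Finset.sum_apply]
    have e2 : ∀ α : Fin 3, (site L j (spin α) * site L (j + 1) (spin α)) ψ s
        = ∑ b, ∑ c, (spin α (s j) b * spin α (s (j + 1)) c) * ψ (upd s j (j + 1) b c) := by
      intro α
      show ∑ b, spin α (s j) b * (∑ c, spin α (update s j b (j + 1)) c *
        ψ (update (update s j b) (j + 1) c)) = _
      refine Finset.sum_congr rfl fun b _ => ?_
      rw [Finset.mul_sum]
      refine Finset.sum_congr rfl fun c _ => ?_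
      rw [update_of_ne h.symm]
      unfold upd
      ring
    rw [Finset.sum_congr rfl fun α _ => e2 α, Finset.sum_comm]
    refine Finset.sum_congr rfl fun b _ => ?_
    rw [Finset.sum_comm]
    exact Finset.sum_congr rfl fun c _ => (Finset.sum_mul _ _ _).symm
  rw [e1]
  have e3 : ∀ b c : Fin 3, (∑ α, spin α (s j) b * spin α (s (j + 1)) c) * ψ (upd s j (j + 1) b c)
      = (if s (j + 1) = b then (if s j = c then ψ (upd s j (j + 1) b c) else 0) else 0)
        - (if s j = s (j + 1) then (if b = c then ψ (upd s j (j + 1) b c) else 0) else 0) := by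
    intro b c
    rw [spin_sum, sub_mul]
    congr 1
    · by_cases h1 : s (j + 1) = b <;> by_cases h2 : s j = c <;> simp [h1, h2]
    · by_cases h1 : s j = s (j + 1) <;> by_cases h2 : b = c <;> simp [h1, h2]
  simp only [e3, Finset.sum_sub_distrib]
  congr 1
  · simp
  · by_cases h1 : s j = s (j + 1) <;> simp [h1]

/-- the projection onto total spin zero of the bond `j, j+1` -/
noncomputable def pr (L : ℕ) (j : ZMod L) : Module.End ℂ (Hil L) where
  toFun ψ := fun s => if s j = s (j + 1) then 1 / 3 * ∑ b, ψ (upd s j (j + 1) b b) else 0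
  map_add' φ ψ := by
    funext s
    simp only [Pi.add_apply]
    split_ifs
    · rw [Finset.sum_add_distrib]; ring
    · ring
  map_smul' c ψ := by
    funext s
    simp only [Pi.smul_apply, smul_eq_mul, RingHom.id_apply]
    split_ifs
    · rw [← Finset.mul_sum]; ring
    · ring

theorem pr_apply {L : ℕ} {j : ZMod L} (ψ : Hil L) (s : ZMod L → Fin 3) :
    pr L j ψ s = if s j = s (j + 1) then 1 / 3 * ∑ b, ψ (upd s j (j + 1) b b) else 0 := rfl

theorem inter_eq {L : ℕ} {j : ZMod L} (h : j ≠ j + 1) : inter L j = pr L j := by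
  refine LinearMap.ext fun ψ => funext fun s => ?_
  have e1 : inter L j ψ s = 1 / 3 * (bond L j (bond L j ψ) s - ψ s) := rfl
  rw [e1, bond_apply h, bond_apply h, pr_apply, upd_upd]
  simp only [upd_left h, upd_right]
  rw [upd_self]
  by_cases h1 : s j = s (j + 1)
  · have h2 : s (j + 1) = s j := h1.symm
    have e2 : ∀ b : Fin 3, bond L j ψ (upd s j (j + 1) b b) = ψ (upd s j (j + 1) b b)
        - ∑ c, ψ (upd s j (j + 1) c c) := by
      intro b
      rw [bond_apply h, upd_upd, upd_left h, upd_right, if_pos rfl]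
      simp only [upd_upd]
    simp only [e2, if_pos h1, if_pos h2, upd_upd, Finset.sum_sub_distrib, Finset.sum_const,
      Finset.card_univ, Fintype.card_fin, nsmul_eq_mul]
    push_cast
    ring
  · have h2 : ¬ s (j + 1) = s j := fun h => h1 h.symm
    simp only [if_neg h1, if_neg h2]
    ring

end Vale.Agent.P348
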