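import Mathlib

/-! # P348: spin-one rings, definitions -/

namespace Vale.Agent.P348

/-- the Levi-Civita symbol -/
def eps (a b c : Fin 3) : ℤ :=
  (((a : ℕ) : ℤ) - ((b : ℕ) : ℤ)) * (((b : ℕ) : ℤ) - ((c : ℕ) : ℤ)) *
    (((c : ℕ) : ℤ) - ((a : ℕ) : ℤ)) / 2

/-- the self-adjoint spin-one matrices, in the Cartesian basis: `(S^α)_{bc} = -i ε_{αbc}` -/
noncomputable def spin (α : Fin 3) : Matrix (Fin 3) (Fin 3) ℂ :=
  fun b c => -Complex.I * (eps α b c : ℂ)

/-- the Hilbert space `(ℂ³)^{⊗ L}` of the ring with `L` sites, as the functions of the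
configurations -/
abbrev Hil (L : ℕ) : Type := (ZMod L → Fin 3) → ℂ

/-- the operator which acts as `A` on the factor `j` and as the identity on the others -/
def site (L : ℕ) (j : ZMod L) (A : Matrix (Fin 3) (Fin 3) ℂ) : Module.End ℂ (Hil L) where
  toFun ψ := fun s => ∑ b, A (s j) b * ψ (Function.update s j b)
  map_add' φ ψ := by
    funext s
    simp only [Pi.add_apply, mul_add, Finset.sum_add_distrib]
  map_smul' c ψ := by
    funext s
    simp only [Pi.smul_apply, smul_eq_mul, RingHom.id_apply, Finset.mul_sum]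
    exact Finset.sum_congr rfl fun b _ => by ring

/-- `q_j = ∑_α S^α_j S^α_{j+1}` -/
noncomputable def bond (L : ℕ) (j : ZMod L) : Module.End ℂ (Hil L) :=
  ∑ α, site L j (spin α) * site L (j + 1) (spin α)

/-- the bond interaction `f(q_j)` with `f(q) = (q² - 1)/3`: the projection onto total bond spin
zero, as the eigenvalues of `q` are `1, -1, -2` for total bond spin `2, 1, 0` -/
noncomputable def inter (L : ℕ) (j : ZMod L) : Module.End ℂ (Hil L) :=
  (1 / 3 : ℂ) • (bond L j * bond L j - 1)

/-- the Hamiltonian `∑_j f(q_j)` of the periodic ring with `L` sites -/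
noncomputable def ham (L : ℕ) [NeZero L] : Module.End ℂ (Hil L) := ∑ j, inter L j

end Vale.Agent.P348
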