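import Vale.Agent.P348.Main

/-! # P348: the final statement, assembled -/

namespace Vale.Agent.P348

theorem final_result :
    (∀ α : Fin 3, (spin α).IsHermitian) ∧
    (∀ α β : Fin 3, spin α * spin β - spin β * spin α
      = Complex.I • ∑ γ, (eps α β γ : ℂ) • spin γ) ∧
    (∑ α, spin α * spin α = (2 : ℂ) • (1 : Matrix (Fin 3) (Fin 3) ℂ)) ∧
    (∀ (L : ℕ) [NeZero L], 4 ≤ L → ∀ j : ZMod L,
      inter L j * inter L j = inter L j) ∧
    (∀ (L : ℕ) [NeZero L], 4 ≤ L → Even L →
      Module.End.HasEigenvalue (ham L) 0 ∧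
      ∀ μ : ℂ, Module.End.HasEigenvalue (ham L) μ →
        μ.im = 0 ∧ (μ.re = 0 ∨ 1 / 3 ≤ μ.re)) := by
  have hd : ∀ (L : ℕ) [NeZero L], 4 ≤ L → ∀ j : ZMod L, j ≠ j + 1 := by
    intro L _ hL j h
    have h1 : (1 : ZMod L) = 0 := by
      have := congrArg (fun z => z - j) h
      simpa using this.symm
    have h2 : ((1 : ℕ) : ZMod L) = 0 := by
      push_cast
      exact h1
    rw [ZMod.natCast_eq_zero_iff] at h2
    have := Nat.le_of_dvd one_pos h2
    omega
  have hd2 : ∀ (L : ℕ) [NeZero L], 4 ≤ L → ∀ j : ZMod L, j ≠ j + 1 + 1 := by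
    intro L _ hL j h
    have h1 : (1 + 1 : ZMod L) = 0 := by
      have := congrArg (fun z => z - j) h
      simp only [sub_self] at this
      linear_combination -this
    have h2 : ((2 : ℕ) : ZMod L) = 0 := by
      push_cast
      linear_combination h1
    rw [ZMod.natCast_eq_zero_iff] at h2
    have := Nat.le_of_dvd two_pos h2
    omega
  refine ⟨?_, ?_, ?_, ?_, ?_⟩
  · intro α
    ext b c
    show star (spin α c b) = spin α b c
    unfold spin
    have h : eps α c b = -eps α b c := by
      revert α b c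
      decide
    rw [h]
    simp
  · intro α β
    have h : ∀ α β b c : Fin 3, ∑ x, eps α b x * eps β x c - ∑ x, eps β b x * eps α x c
        = -∑ γ, eps α β γ * eps γ b c := by
      decide
    ext b c
    have h2 : ((∑ x, eps α b x * eps β x c - ∑ x, eps β b x * eps α x c : ℤ) : ℂ)
        = ((-∑ γ, eps α β γ * eps γ b c : ℤ) : ℂ) := by
      rw [h]
    push_cast at h2
    simp only [Matrix.sub_apply, Matrix.mul_apply, Matrix.smul_apply, Matrix.sum_apply,
      smul_eq_mul, spin]
    have e1 : ∀ a b : Fin 3 → ℂ, ∑ x, -Complex.I * a x * (-Complex.I * b x)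
        = -∑ x, a x * b x := by
      intro a b
      rw [← Finset.sum_neg_distrib]
      refine Finset.sum_congr rfl fun x _ => ?_
      linear_combination (a x * b x) * Complex.I_mul_I
    have e2 : ∀ a b : Fin 3 → ℂ, ∑ x, a x * (-Complex.I * b x) = -Complex.I * ∑ x, a x * b x := by
      intro a b
      rw [Finset.mul_sum]
      exact Finset.sum_congr rfl fun x _ => by ring
    rw [e1, e1, e2]
    linear_combination (-1) * h2 + (∑ γ, (eps α β γ : ℂ) * (eps γ b c : ℂ)) * Complex.I_mul_I
  · have h : ∀ b c : Fin 3, ∑ α, ∑ x, eps α b x * eps α x c = if b = c then -2 else 0 := by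
      decide
    ext b c
    have h2 : ((∑ α, ∑ x, eps α b x * eps α x c : ℤ) : ℂ)
        = (((if b = c then -2 else 0 : ℤ)) : ℂ) := by
      rw [h]
    push_cast at h2
    simp only [Matrix.sum_apply, Matrix.mul_apply, Matrix.smul_apply, smul_eq_mul, spin,
      Matrix.one_apply]
    have e1 : ∑ α, ∑ x, -Complex.I * (eps α b x : ℂ) * (-Complex.I * (eps α x c : ℂ))
        = -∑ α, ∑ x, (eps α b x : ℂ) * (eps α x c : ℂ) := by
      rw [← Finset.sum_neg_distrib]
      refine Finset.sum_congr rfl fun α _ => ?_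
      rw [← Finset.sum_neg_distrib]
      refine Finset.sum_congr rfl fun x _ => ?_
      linear_combination ((eps α b x : ℂ) * (eps α x c : ℂ)) * Complex.I_mul_I
    rw [e1, h2]
    split_ifs <;> ring
  · intro L _ hL j
    rw [inter_eq (hd L hL j)]
    exact LinearMap.ext fun ψ => pr_idem (hd L hL j) ψ
  · intro L _ hL hE
    exact ⟨ground (hd L hL) hE hL, fun μ hμ => spectrum_ineq (hd L hL) (hd2 L hL) μ hμ⟩

end Vale.Agent.P348
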