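import Vale.Agent.P348.Spec

namespace Vale.Agent.P348

open Function

variable {L : ℕ} [NeZero L]

theorem B_far {i j : ZMod L} (hi : i ≠ i + 1) (hj : j ≠ j + 1) (h1 : i ≠ j) (h2 : i ≠ j + 1)
    (h3 : i + 1 ≠ j) (ψ : Hil L) : 0 ≤ B (pr L i ψ) (pr L j ψ) := by
  have e : B (pr L i ψ) (pr L j ψ) = B (pr L j (pr L i ψ)) (pr L j (pr L i ψ)) := by
    calc B (pr L i ψ) (pr L j ψ) = B (pr L i (pr L i ψ)) (pr L j ψ) := by rw [pr_idem hi]
      _ = B (pr L i ψ) (pr L i (pr L j ψ)) := (B_pr hi _ _).symm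
      _ = B (pr L i ψ) (pr L j (pr L i ψ)) := by rw [pr_comm h1 h2 h3]
      _ = B (pr L i ψ) (pr L j (pr L j (pr L i ψ))) := by rw [pr_idem hj]
      _ = B (pr L j (pr L i ψ)) (pr L j (pr L i ψ)) := B_pr hj _ _
  rw [e]
  exact B_self_nonneg _

theorem B_near {j : ZMod L} (h : j ≠ j + 1) (h2 : j ≠ j + 1 + 1) (h3 : j + 1 ≠ j + 1 + 1)
    (ψ : Hil L) : -(1 / 6) * (B (pr L j ψ) (pr L j ψ) + B (pr L (j + 1) ψ) (pr L (j + 1) ψ))
      ≤ B (pr L j ψ) (pr L (j + 1) ψ) := by
  set x := pr L j ψ with hx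
  set y := pr L (j + 1) ψ with hy
  set z := pr L (j + 1) x with hz
  have hzy : B z y = B x y := by
    rw [hz, ← B_pr h3, hy, pr_idem h3]
  have hzz : B z z = 1 / 9 * B x x := by
    calc B z z = B (pr L (j + 1) x) z := rfl
      _ = B x (pr L (j + 1) z) := (B_pr h3 _ _).symm
      _ = B x z := by rw [hz, pr_idem h3]
      _ = B (pr L j ψ) z := rfl
      _ = B ψ (pr L j z) := (B_pr h _ _).symm
      _ = B ψ (((1 / 9 : ℝ) : ℂ) • pr L j ψ) := by rw [hz, hx, pr_TL h h2 h3]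
      _ = 1 / 9 * B ψ (pr L j ψ) := B_smul_right _ _ _
      _ = 1 / 9 * B x x := by
        rw [hx, ← B_pr h, pr_idem h]
  have h4 := B_self_nonneg (((3 : ℝ) : ℂ) • z + y)
  rw [B_add_right, B_smul_right, B_comm _ z, B_comm _ y, B_add_right, B_add_right,
    B_smul_right, B_smul_right, hzz, hzy, B_comm y z, hzy] at h4
  linarith

theorem ham_eq (h : ∀ j : ZMod L, j ≠ j + 1) : ham L = ∑ j, pr L j :=
  Finset.sum_congr rfl fun j _ => inter_eq (h j)

theorem ham_ineq (hd : ∀ j : ZMod L, j ≠ j + 1) (hd2 : ∀ j : ZMod L, j ≠ j + 1 + 1) (ψ : Hil L) :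
    1 / 3 * B ψ ((∑ j, pr L j : Module.End ℂ (Hil L)) ψ)
      ≤ B ((∑ j, pr L j : Module.End ℂ (Hil L)) ψ) ((∑ j, pr L j : Module.End ℂ (Hil L)) ψ) := by
  have hs : (∑ j, pr L j : Module.End ℂ (Hil L)) ψ = ∑ j, pr L j ψ := by
    rw [LinearMap.sum_apply]
  rw [hs, B_sum_right, B_sum_left]
  have e1 : ∑ j, B ψ (pr L j ψ) = ∑ j, B (pr L j ψ) (pr L j ψ) := by
    refine Finset.sum_congr rfl fun j _ => ?_
    rw [← B_pr (hd j), pr_idem (hd j)]
  rw [e1]
  have hrow : ∀ i : ZMod L, B (pr L i ψ) (pr L i ψ) + B (pr L i ψ) (pr L (i + 1) ψ)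
      + B (pr L i ψ) (pr L (i - 1) ψ) ≤ B (pr L i ψ) (∑ j, pr L j ψ) := by
    intro i
    rw [B_sum_right]
    have n1 : i ≠ i + 1 := hd i
    have n2 : i ≠ i - 1 := by
      intro h
      have := hd (i - 1)
      rw [sub_add_cancel] at this
      exact this h.symm
    have n3 : i + 1 ≠ i - 1 := by
      intro h
      have := hd2 (i - 1)
      rw [sub_add_cancel] at this
      exact this h.symm
    have hsub : ({i, i + 1, i - 1} : Finset (ZMod L)) ⊆ Finset.univ := Finset.subset_univ _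
    have h3 : ∑ j ∈ ({i, i + 1, i - 1} : Finset (ZMod L)), B (pr L i ψ) (pr L j ψ)
        = B (pr L i ψ) (pr L i ψ) + B (pr L i ψ) (pr L (i + 1) ψ)
          + B (pr L i ψ) (pr L (i - 1) ψ) := by
      rw [Finset.sum_insert (by simp [n1, n2]), Finset.sum_insert (by simp [n3]),
        Finset.sum_singleton]
      ring
    rw [← h3]
    refine Finset.sum_le_sum_of_subset_of_nonneg hsub fun j _ hj => ?_
    simp only [Finset.mem_insert, Finset.mem_singleton, not_or] at hj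
    refine B_far (hd i) (hd j) (fun h => hj.1 h.symm) (fun h => hj.2.2 ?_)
      (fun h => hj.2.1 h.symm) ψ
    rw [h, add_sub_cancel_right]
  have hsum := Finset.sum_le_sum fun i (_ : i ∈ (Finset.univ : Finset (ZMod L))) => hrow i
  rw [Finset.sum_add_distrib, Finset.sum_add_distrib] at hsum
  have hshift : ∑ i : ZMod L, B (pr L i ψ) (pr L (i - 1) ψ)
      = ∑ i : ZMod L, B (pr L i ψ) (pr L (i + 1) ψ) := by
    rw [← Equiv.sum_comp (Equiv.addRight (1 : ZMod L))
      (fun i => B (pr L i ψ) (pr L (i - 1) ψ))]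
    refine Finset.sum_congr rfl fun i _ => ?_
    simp only [Equiv.coe_addRight, add_sub_cancel_right]
    exact B_comm _ _
  rw [hshift] at hsum
  have hnear := Finset.sum_le_sum fun i (_ : i ∈ (Finset.univ : Finset (ZMod L))) =>
    B_near (hd i) (hd2 i) (hd (i + 1)) ψ
  rw [← Finset.mul_sum, Finset.sum_add_distrib] at hnear
  have hshift2 : ∑ i : ZMod L, B (pr L (i + 1) ψ) (pr L (i + 1) ψ)
      = ∑ i : ZMod L, B (pr L i ψ) (pr L i ψ) :=
    Equiv.sum_comp (Equiv.addRight (1 : ZMod L)) (fun i => B (pr L i ψ) (pr L i ψ))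
  rw [hshift2] at hnear
  linarith

theorem spectrum_ineq (hd : ∀ j : ZMod L, j ≠ j + 1) (hd2 : ∀ j : ZMod L, j ≠ j + 1 + 1) (μ : ℂ)
    (hμ : Module.End.HasEigenvalue (ham L) μ) :
    μ.im = 0 ∧ (μ.re = 0 ∨ 1 / 3 ≤ μ.re) := by
  obtain ⟨ψ, hψ⟩ := hμ.exists_hasEigenvector
  have hne : ψ ≠ 0 := hψ.2
  have hH : ham L ψ = μ • ψ := hψ.apply_eq_smul
  rw [ham_eq hd] at hH
  have hN := B_self_pos hne
  have a1 : B ψ (μ • ψ) = μ.re * B ψ ψ := by
    unfold B
    rw [Finset.mul_sum]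
    refine Finset.sum_congr rfl fun s _ => ?_
    simp only [Pi.smul_apply, smul_eq_mul, Complex.mul_re, Complex.mul_im]
    ring
  have a2 : B (μ • ψ) (μ • ψ) = (μ.re ^ 2 + μ.im ^ 2) * B ψ ψ := by
    unfold B
    rw [Finset.mul_sum]
    refine Finset.sum_congr rfl fun s _ => ?_
    simp only [Pi.smul_apply, smul_eq_mul, Complex.mul_re, Complex.mul_im]
    ring
  have a3 : B (Complex.I • ψ) (μ • ψ) = μ.im * B ψ ψ := by
    unfold B
    rw [Finset.mul_sum]
    refine Finset.sum_congr rfl fun s _ => ?_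
    simp only [Pi.smul_apply, smul_eq_mul, Complex.mul_re, Complex.mul_im, Complex.I_re,
      Complex.I_im]
    ring
  have a4 : B (Complex.I • (μ • ψ)) ψ = -(μ.im * B ψ ψ) := by
    unfold B
    rw [Finset.mul_sum, ← Finset.sum_neg_distrib]
    refine Finset.sum_congr rfl fun s _ => ?_
    simp only [Pi.smul_apply, smul_eq_mul, Complex.mul_re, Complex.mul_im, Complex.I_re,
      Complex.I_im]
    ring
  have hsa : ∀ φ χ : Hil L, B φ ((∑ j, pr L j : Module.End ℂ (Hil L)) χ)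
      = B ((∑ j, pr L j : Module.End ℂ (Hil L)) φ) χ := by
    intro φ χ
    rw [LinearMap.sum_apply, LinearMap.sum_apply, B_sum_right, B_sum_left]
    exact Finset.sum_congr rfl fun j _ => B_pr (hd j) _ _
  have him : μ.im = 0 := by
    have h1 := hsa (Complex.I • ψ) ψ
    rw [map_smul, hH, a3, a4] at h1
    nlinarith
  refine ⟨him, ?_⟩
  have h2 := ham_ineq hd hd2 ψ
  rw [hH, a1, a2, him] at h2
  have h3 : 0 ≤ μ.re * B ψ ψ := by
    rw [← a1, ← hH, LinearMap.sum_apply, B_sum_right]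
    refine Finset.sum_nonneg fun j _ => ?_
    rw [← pr_idem (hd j), B_pr (hd j)]
    exact B_self_nonneg _
  have h4 : 0 ≤ μ.re := nonneg_of_mul_nonneg_left h3 hN
  rcases h4.eq_or_lt with h5 | h5
  · exact Or.inl h5.symm
  · right
    have h6 : 1 / 3 * (μ.re * B ψ ψ) ≤ μ.re * (μ.re * B ψ ψ) := by
      calc _ ≤ (μ.re ^ 2 + 0 ^ 2) * B ψ ψ := h2
        _ = μ.re * (μ.re * B ψ ψ) := by ring
    exact le_of_mul_le_mul_right h6 (mul_pos h5 hN)

theorem ground (hd : ∀ j : ZMod L, j ≠ j + 1) (hE : Even L) (hL : 4 ≤ L) :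
    Module.End.HasEigenvalue (ham L) 0 := by
  let s0 : ZMod L → Fin 3 := fun j => if j.val % 2 = 0 then 0 else 1
  have hs : ∀ j : ZMod L, s0 j ≠ s0 (j + 1) := by
    intro j
    have h1 : (j + 1).val = if j.val + 1 < L then j.val + 1 else 0 := by
      have hj := ZMod.val_lt j
      have h1v : (1 : ZMod L).val = 1 := by
        have : Fact (1 < L) := ⟨by omega⟩
        exact ZMod.val_one L
      split_ifs with h
      · rw [ZMod.val_add, h1v, Nat.mod_eq_of_lt h]
      · have : j.val + 1 = L := by omega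
        rw [ZMod.val_add, h1v, this, Nat.mod_self]
    have hj := ZMod.val_lt j
    obtain ⟨m, hm⟩ := hE
    simp only [s0, h1]
    split_ifs <;> first | decide | omega
  refine Module.End.hasEigenvalue_of_hasEigenvector (x := Pi.single s0 (1 : ℂ)) ⟨?_, ?_⟩
  · rw [Module.End.mem_eigenspace_iff, zero_smul, ham_eq hd, LinearMap.sum_apply]
    refine Finset.sum_eq_zero fun j _ => ?_
    funext s
    rw [pr_apply, Pi.zero_apply]
    split_ifs with h
    · have e : ∀ b : Fin 3, (Pi.single s0 (1 : ℂ) : Hil L) (upd s j (j + 1) b b) = 0 := by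
        intro b
        rw [Pi.single_apply, if_neg]
        intro h2
        apply hs j
        rw [← h2, upd_left (hd j), upd_right]
      simp only [e]
      simp
    · rfl
  · intro h
    have := congrFun h s0
    simp at this

end Vale.Agent.P348
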