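import Vale.Agent.P348.Alg

namespace Vale.Agent.P348

open Function

/-- real inner product -/
noncomputable def B {L : ℕ} [NeZero L] (φ ψ : Hil L) : ℝ :=
  ∑ s, ((φ s).re * (ψ s).re + (φ s).im * (ψ s).im)

variable {L : ℕ} [NeZero L]

theorem B_comm (φ ψ : Hil L) : B φ ψ = B ψ φ :=
  Finset.sum_congr rfl fun s _ => by ring

theorem B_add_right (φ ψ χ : Hil L) : B φ (ψ + χ) = B φ ψ + B φ χ := by
  unfold B
  rw [← Finset.sum_add_distrib]
  refine Finset.sum_congr rfl fun s _ => ?_
  simp only [Pi.add_apply, Complex.add_re, Complex.add_im]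
  ring

theorem B_smul_right (c : ℝ) (φ ψ : Hil L) : B φ ((c : ℂ) • ψ) = c * B φ ψ := by
  unfold B
  rw [Finset.mul_sum]
  refine Finset.sum_congr rfl fun s _ => ?_
  simp only [Pi.smul_apply, smul_eq_mul, Complex.re_ofReal_mul, Complex.im_ofReal_mul]
  ring

theorem B_sum_right {ι : Type*} (t : Finset ι) (φ : Hil L) (f : ι → Hil L) :
    B φ (∑ i ∈ t, f i) = ∑ i ∈ t, B φ (f i) := by
  classical
  induction t using Finset.induction_on with
  | empty => simp [B]
  | insert a t ha ih => rw [Finset.sum_insert ha, Finset.sum_insert ha, B_add_right, ih]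

theorem B_sum_left {ι : Type*} (t : Finset ι) (φ : Hil L) (f : ι → Hil L) :
    B (∑ i ∈ t, f i) φ = ∑ i ∈ t, B (f i) φ := by
  rw [B_comm, B_sum_right]
  exact Finset.sum_congr rfl fun i _ => B_comm _ _

theorem B_self_nonneg (φ : Hil L) : 0 ≤ B φ φ :=
  Finset.sum_nonneg fun s _ => add_nonneg (mul_self_nonneg _) (mul_self_nonneg _)

theorem B_self_pos {φ : Hil L} (h : φ ≠ 0) : 0 < B φ φ := by
  rw [Function.ne_iff] at h
  obtain ⟨s, hs⟩ := h
  refine Finset.sum_pos' (fun s _ => add_nonneg (mul_self_nonneg _) (mul_self_nonneg _))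
    ⟨s, Finset.mem_univ s, ?_⟩
  have := Complex.normSq_pos.2 hs
  rwa [Complex.normSq_apply] at this

theorem swap_sum {j : ZMod L} (h : j ≠ j + 1) (F : (ZMod L → Fin 3) → (ZMod L → Fin 3) → ℝ) :
    ∑ s, ∑ b, (if s j = s (j + 1) then F s (upd s j (j + 1) b b) else 0)
      = ∑ s, ∑ b, (if s j = s (j + 1) then F (upd s j (j + 1) b b) s else 0) := by
  let g : (ZMod L → Fin 3) × Fin 3 → (ZMod L → Fin 3) × Fin 3 := fun p =>
    if p.1 j = p.1 (j + 1) then (upd p.1 j (j + 1) p.2 p.2, p.1 j) else p
  have hg : Function.Involutive g := by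
    rintro ⟨s, b⟩
    by_cases h1 : s j = s (j + 1)
    · have e1 : g (s, b) = (upd s j (j + 1) b b, s j) := if_pos h1
      have e2 : g (upd s j (j + 1) b b, s j)
          = (upd (upd s j (j + 1) b b) j (j + 1) (s j) (s j), upd s j (j + 1) b b j) :=
        if_pos (by show upd s j (j + 1) b b j = upd s j (j + 1) b b (j + 1); rw [upd_left h, upd_right])
      have e3 : upd s j (j + 1) (s j) (s j) = s := by
        conv_lhs => rw [show upd s j (j + 1) (s j) (s j) = upd s j (j + 1) (s j) (s (j + 1)) by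
          rw [h1]]
        exact upd_self
      rw [e1, e2, upd_left h, upd_upd, e3]
    · have e1 : g (s, b) = (s, b) := if_neg h1
      rw [e1, e1]
  rw [← Fintype.sum_prod_type' (fun s b => if s j = s (j + 1) then F s (upd s j (j + 1) b b) else 0),
    ← Fintype.sum_prod_type' (fun s b => if s j = s (j + 1) then F (upd s j (j + 1) b b) s else 0)]
  refine Fintype.sum_equiv (Function.Involutive.toPerm g hg) _ _ ?_
  rintro ⟨s, b⟩
  by_cases h1 : s j = s (j + 1)
  · have e1 : (Function.Involutive.toPerm g hg) (s, b) = (upd s j (j + 1) b b, s j) := if_pos h1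
    have e3 : upd s j (j + 1) (s j) (s j) = s := by
      conv_lhs => rw [show upd s j (j + 1) (s j) (s j) = upd s j (j + 1) (s j) (s (j + 1)) by
        rw [h1]]
      exact upd_self
    rw [e1]
    simp only [upd_left h, upd_right, if_true, if_pos h1, upd_upd, e3]
  · have e1 : (Function.Involutive.toPerm g hg) (s, b) = (s, b) := if_neg h1
    rw [e1]
    simp only [if_neg h1]

theorem B_pr {j : ZMod L} (h : j ≠ j + 1) (φ ψ : Hil L) : B φ (pr L j ψ) = B (pr L j φ) ψ := by
  have e1 : ∀ φ ψ : Hil L, B φ (pr L j ψ) = ∑ s, ∑ b, (if s j = s (j + 1) then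
      1 / 3 * ((φ s).re * (ψ (upd s j (j + 1) b b)).re
        + (φ s).im * (ψ (upd s j (j + 1) b b)).im) else 0) := by
    intro φ ψ
    unfold B
    refine Finset.sum_congr rfl fun s _ => ?_
    rw [pr_apply]
    by_cases h1 : s j = s (j + 1)
    · simp only [if_pos h1]
      have e : (1 / 3 : ℂ) = ((1 / 3 : ℝ) : ℂ) := by push_cast; ring
      rw [e, Complex.re_ofReal_mul, Complex.im_ofReal_mul, Complex.re_sum, Complex.im_sum,
        ← Finset.mul_sum, Finset.sum_add_distrib, ← Finset.mul_sum, ← Finset.mul_sum]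
      ring
    · simp only [if_neg h1]
      simp
  rw [e1, B_comm (pr L j φ) ψ, e1]
  rw [swap_sum h (fun s t => 1 / 3 * ((φ s).re * (ψ t).re + (φ s).im * (ψ t).im))]
  refine Finset.sum_congr rfl fun s _ => Finset.sum_congr rfl fun b _ => ?_
  split_ifs
  · ring
  · rfl

theorem pr_idem {j : ZMod L} (h : j ≠ j + 1) (ψ : Hil L) : pr L j (pr L j ψ) = pr L j ψ := by
  funext s
  rw [pr_apply, pr_apply]
  split_ifs with h1
  · have e : ∀ b : Fin 3, pr L j ψ (upd s j (j + 1) b b)
        = 1 / 3 * ∑ c, ψ (upd s j (j + 1) c c) := by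
      intro b
      rw [pr_apply, upd_left h, upd_right, if_pos rfl]
      simp only [upd_upd]
    simp only [e, Finset.sum_const, Finset.card_univ, Fintype.card_fin, nsmul_eq_mul]
    push_cast
    ring
  · rfl

theorem pr_TL {j : ZMod L} (h : j ≠ j + 1) (h2 : j ≠ j + 1 + 1) (h3 : j + 1 ≠ j + 1 + 1)
    (ψ : Hil L) : pr L j (pr L (j + 1) (pr L j ψ)) = ((1 / 9 : ℝ) : ℂ) • pr L j ψ := by
  funext s
  rw [Pi.smul_apply, smul_eq_mul, pr_apply, pr_apply]
  split_ifs with h1
  · have e : ∀ b : Fin 3, pr L (j + 1) (pr L j ψ) (upd s j (j + 1) b b)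
        = if b = s (j + 1 + 1) then 1 / 9 * ∑ c, ψ (upd s j (j + 1) c c) else 0 := by
      intro b
      rw [pr_apply, upd_right, upd_other h2.symm h3.symm]
      by_cases hb : b = s (j + 1 + 1)
      · rw [if_pos hb, if_pos hb]
        have e2 : ∀ c : Fin 3, pr L j ψ (upd (upd s j (j + 1) b b) (j + 1) (j + 1 + 1) c c)
            = if b = c then 1 / 3 * ∑ c, ψ (upd s j (j + 1) c c) else 0 := by
          intro c
          rw [pr_apply, upd_left h3, upd_other h h2, upd_left h]
          by_cases hc : b = c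
          · rw [if_pos hc, if_pos hc]
            congr 1
            refine Finset.sum_congr rfl fun d _ => ?_
            congr 1
            funext l
            by_cases l1 : l = j
            · subst l1
              rw [upd_left h, upd_left h]
            · by_cases l2 : l = j + 1
              · subst l2
                rw [upd_right, upd_right]
              · rw [upd_other l1 l2, upd_other l1 l2]
                by_cases l3 : l = j + 1 + 1
                · subst l3
                  rw [upd_right, ← hc, hb]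
                · rw [upd_other l2 l3, upd_other l1 l2]
          · rw [if_neg hc, if_neg hc]
        simp only [e2]
        rw [Finset.sum_ite_eq Finset.univ b, if_pos (Finset.mem_univ b)]
        ring
      · rw [if_neg hb, if_neg hb]
    simp only [e]
    rw [Finset.sum_ite_eq' Finset.univ, if_pos (Finset.mem_univ _)]
    push_cast
    ring
  · ring

theorem pr_comm {i j : ZMod L} (h1 : i ≠ j) (h2 : i ≠ j + 1) (h3 : i + 1 ≠ j) (ψ : Hil L) :
    pr L i (pr L j ψ) = pr L j (pr L i ψ) := by
  have h4 : i + 1 ≠ j + 1 := fun h => h1 (add_right_cancel h)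
  funext s
  have e : ∀ (i j : ZMod L), i ≠ j → i ≠ j + 1 → i + 1 ≠ j → i + 1 ≠ j + 1 →
      pr L i (pr L j ψ) s = if s i = s (i + 1) then (if s j = s (j + 1) then
        1 / 9 * ∑ b, ∑ c, ψ (upd (upd s i (i + 1) b b) j (j + 1) c c) else 0) else 0 := by
    intro i j h1 h2 h3 h4
    rw [pr_apply]
    split_ifs with g1 g2
    · have e : ∀ b : Fin 3, pr L j ψ (upd s i (i + 1) b b)
          = 1 / 3 * ∑ c, ψ (upd (upd s i (i + 1) b b) j (j + 1) c c) := by
        intro b
        rw [pr_apply, upd_other h1.symm h3.symm, upd_other h2.symm h4.symm, if_pos g2]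
      simp only [e, ← Finset.mul_sum]
      ring
    · have e : ∀ b : Fin 3, pr L j ψ (upd s i (i + 1) b b) = 0 := by
        intro b
        rw [pr_apply, upd_other h1.symm h3.symm, upd_other h2.symm h4.symm, if_neg g2]
      simp only [e]
      simp
    · rfl
  rw [e i j h1 h2 h3 h4, e j i h1.symm h3.symm h2.symm h4.symm]
  have e5 : ∀ b c : Fin 3, upd (upd s i (i + 1) b b) j (j + 1) c c
      = upd (upd s j (j + 1) c c) i (i + 1) b b := by
    intro b c
    funext l
    unfold upd
    simp only [update_apply]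
    by_cases l1 : l = j + 1
    · subst l1
      simp [h4.symm, h2.symm]
    · by_cases l2 : l = j
      · subst l2
        simp [l1, h1.symm, h3.symm]
      · simp [l1, l2]
  have e6 : ∑ b, ∑ c, ψ (upd (upd s i (i + 1) b b) j (j + 1) c c)
      = ∑ b, ∑ c, ψ (upd (upd s j (j + 1) b b) i (i + 1) c c) := by
    rw [Finset.sum_comm]
    exact Finset.sum_congr rfl fun b _ => Finset.sum_congr rfl fun c _ => by rw [e5]
  rw [e6]
  split_ifs <;> rfl

end Vale.Agent.P348
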